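import Vale.Agent.Lib.P356.helper23.Defs

/-!
P356, pool job G (helper38, second copy): for a Hermitian matrix `h` and a complex number `lam`
there is a polynomial `p` with `p(lam) = 1` and `h p(h) = lam p(h)` (the Lagrange product over the
other eigenvalues, checked on the eigenvector basis).
-/

namespace Vale.Agent.Lib.P356.H38

open Matrix
open Vale.Agent.Lib.P356

/-- A polynomial of a matrix acts on an eigenvector by the value of the polynomial. -/
theorem aeval_mulVec_eigen {n : Type*} [Fintype n] [DecidableEq n] (h : Matrix n n ℂ)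
    (v : n → ℂ) (μ : ℂ) (hv : h *ᵥ v = μ • v) (s : Polynomial ℂ) :
    (Polynomial.aeval h s) *ᵥ v = s.eval μ • v := by
  induction s using Polynomial.induction_on with
  | C a =>
    rw [Polynomial.aeval_C, Polynomial.eval_C, Algebra.algebraMap_eq_smul_one,
      Matrix.smul_mulVec, Matrix.one_mulVec]
  | add p q hp hq =>
    rw [map_add, Matrix.add_mulVec, hp, hq, Polynomial.eval_add, add_smul]
  | monomial k a ih =>
    have e : (Polynomial.C a * Polynomial.X ^ (k + 1)).eval μ
        = (Polynomial.C a * Polynomial.X ^ k).eval μ * μ := by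
      rw [pow_succ, ← mul_assoc, Polynomial.eval_mul, Polynomial.eval_X]
    rw [e, pow_succ, ← mul_assoc, map_mul, Polynomial.aeval_X, ← Matrix.mulVec_mulVec, hv,
      Matrix.mulVec_smul, ih, smul_smul, mul_comm]

/-- A matrix that kills every vector of the eigenvector basis is zero. -/
theorem eq_zero_of_kill {n : Type*} [Fintype n] [DecidableEq n] (h : Matrix n n ℂ)
    (hh : h.IsHermitian) (Q : Matrix n n ℂ)
    (hQ : ∀ j, Q *ᵥ ⇑(hh.eigenvectorBasis j) = 0) : Q = 0 := by
  have h1 : Q * (hh.eigenvectorUnitary : Matrix n n ℂ) = 0 := by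
    ext i j
    have h2 : (Q * (hh.eigenvectorUnitary : Matrix n n ℂ)) *ᵥ Pi.single j 1 = 0 := by
      rw [← Matrix.mulVec_mulVec, hh.eigenvectorUnitary_mulVec, hQ j]
    rw [Matrix.mulVec_single_one] at h2
    exact congrFun h2 i
  calc Q = Q * ((hh.eigenvectorUnitary : Matrix n n ℂ)
        * star (hh.eigenvectorUnitary : Matrix n n ℂ)) := by
        rw [Matrix.mem_unitaryGroup_iff.1 hh.eigenvectorUnitary.2, Matrix.mul_one]
    _ = 0 := by rw [← Matrix.mul_assoc, h1, Matrix.zero_mul]

theorem exists_spectral_poly {n : Type*} [Fintype n] [DecidableEq n] (h : Matrix n n ℂ)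
    (hh : h.IsHermitian) (lam : ℂ) :
    ∃ p : Polynomial ℂ, p.eval lam = 1 ∧
      h * Polynomial.aeval h p = lam • Polynomial.aeval h p := by
  classical
  have hp1 : (∏ μ ∈ (Finset.univ.image (fun j => (hh.eigenvalues j : ℂ))).erase lam,
      (Polynomial.C (lam - μ)⁻¹ * (Polynomial.X - Polynomial.C μ))).eval lam = 1 := by
    rw [Polynomial.eval_prod]
    refine Finset.prod_eq_one fun μ hμ => ?_
    have hne : lam - μ ≠ 0 := sub_ne_zero.2 (Finset.ne_of_mem_erase hμ).symm
    rw [Polynomial.eval_mul, Polynomial.eval_C, Polynomial.eval_sub, Polynomial.eval_X,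
      Polynomial.eval_C, inv_mul_cancel₀ hne]
  generalize hp : (∏ μ ∈ (Finset.univ.image (fun j => (hh.eigenvalues j : ℂ))).erase lam,
      (Polynomial.C (lam - μ)⁻¹ * (Polynomial.X - Polynomial.C μ))) = p at hp1
  refine ⟨p, hp1, ?_⟩
  have hkill : ∀ j, (Polynomial.aeval h ((Polynomial.X - Polynomial.C lam) * p))
      *ᵥ ⇑(hh.eigenvectorBasis j) = 0 := by
    intro j
    have hv : h *ᵥ ⇑(hh.eigenvectorBasis j)
        = ((hh.eigenvalues j : ℝ) : ℂ) • ⇑(hh.eigenvectorBasis j) := by
      rw [hh.mulVec_eigenvectorBasis j]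
      funext i
      simp [Complex.real_smul]
    rw [aeval_mulVec_eigen h _ _ hv]
    have hzero : ((Polynomial.X - Polynomial.C lam) * p).eval ((hh.eigenvalues j : ℝ) : ℂ) = 0 := by
      rw [Polynomial.eval_mul, Polynomial.eval_sub, Polynomial.eval_X, Polynomial.eval_C]
      by_cases he : ((hh.eigenvalues j : ℝ) : ℂ) = lam
      · rw [he, sub_self, zero_mul]
      · have hmem : ((hh.eigenvalues j : ℝ) : ℂ)
            ∈ (Finset.univ.image (fun j => (hh.eigenvalues j : ℂ))).erase lam :=
          Finset.mem_erase.2 ⟨he, Finset.mem_image_of_mem _ (Finset.mem_univ j)⟩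
        have hpz : p.eval ((hh.eigenvalues j : ℝ) : ℂ) = 0 := by
          rw [← hp, Polynomial.eval_prod]
          refine Finset.prod_eq_zero hmem ?_
          rw [Polynomial.eval_mul, Polynomial.eval_sub, Polynomial.eval_X, Polynomial.eval_C,
            Polynomial.eval_C, sub_self, mul_zero]
        rw [hpz, mul_zero]
    rw [hzero, zero_smul]
  have hr := eq_zero_of_kill h hh _ hkill
  have e : Polynomial.aeval h ((Polynomial.X - Polynomial.C lam) * p)
      = h * Polynomial.aeval h p - lam • Polynomial.aeval h p := by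
    rw [map_mul, map_sub, Polynomial.aeval_X, Polynomial.aeval_C,
      Algebra.algebraMap_eq_smul_one, sub_mul, smul_mul_assoc, one_mul]
  rw [e] at hr
  exact sub_eq_zero.1 hr

end Vale.Agent.Lib.P356.H38
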